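import Vale.Agent.Lib.P038.SatK.I.P3_2.H
noncomputable section
namespace Vale.Agent.Lib.P038.SatK.I.P3_2.S0
open Vale.Agent.Lib.P038.Sat Vale.Agent.Lib.P038.SatK Vale.Agent.Lib.P038.SatK.I.P3_2
def b0 : List Nat := [nat_lit 1618481116086295,nat_lit 26522683376660398001,nat_lit 1688867040133159,nat_lit 7499548936571469761,nat_lit 1759252964180023,nat_lit 8076080074798940113,nat_lit 203101539340429857800320,nat_lit 4758111834647258349696,nat_lit 4762147552503148068992,nat_lit 37811220772406725591184,nat_lit 37835429520368491315344,nat_lit 4433325372473352,nat_lit 70840690878680567791537,nat_lit 5195183756884983729,nat_lit 80284271063669919596497,nat_lit 4041910425737117649,nat_lit 75569398500228654579649,nat_lit 6345994233492553601,nat_lit 6922454994352488321,nat_lit 2310909722036813729,nat_lit 2887370482896748449,nat_lit 18451740434968362897,nat_lit 19604661948131721105,nat_lit 47850886975868895251,nat_lit 48427418105506562067,nat_lit 52462080430266908723,nat_lit 53038611559904575539,nat_lit 50734668515373482019,nat_lit 51887730766058749987,nat_lit 170024224258575464153057,nat_lit 174747742044477190062081,nat_lit 255023938435378508218353,nat_lit 146410084312393933930513,nat_lit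 141700401373458437521633,nat_lit 7740853917319192,nat_lit 236150034059127968383249,nat_lit 5770378069361705249,nat_lit 1829905176199241,nat_lit 179465496489553473978689,nat_lit 14210915110456220188693,nat_lit 14211491641585857855509,nat_lit 25947700711515357206,nat_lit 25368354849390870928,nat_lit 103904175828755628179761,nat_lit 245593615229340002435393,nat_lit 221956996902607277670689,nat_lit 28393578506856167899188,nat_lit 28394155037985805566004,nat_lit 9486818752825731317813,nat_lit 9487395283955368984629,nat_lit 23065045183586762806,nat_lit 231423634954773172601089,nat_lit 23639183784511947248,nat_lit 24218107451451523616,nat_lit 184205157921029567431216,nat_lit 89735346012830409310513]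
def p0 : List Nat := [nat_lit 4503599627747329,nat_lit 13511898393845763,nat_lit 22520197160222725,nat_lit 221383448531919265798,nat_lit 258267927830883450887,nat_lit 295170423177557401605,nat_lit 332045896926936629257,nat_lit 368961903072492650506,nat_lit 40538443960745993,nat_lit 45042043588182026,nat_lit 31530145194426375,nat_lit 22522945939791877,nat_lit 442721863266587500556,nat_lit 58552292714774541,nat_lit 516526852310667763726,nat_lit 67557842702032911,nat_lit 590304820306739593221,nat_lit 76567790735155217,nat_lit 81071390362533900,nat_lit 85576089501466643,nat_lit 90079689128845332,nat_lit 94578340954112021,nat_lit 99081940581498902,nat_lit 103592137279037463,nat_lit 108092988127346712,nat_lit 112600436045471769,nat_lit 117104585428664346,nat_lit 121608734811815963,nat_lit 126112884195016732,nat_lit 1070023761109246124059,nat_lit 1106921753406048223258,nat_lit 1143801730204829564951,nat_lit 1180699721402120052760,nat_lit 1217593207900271878177,nat_lit 1291420722639070044195,nat_lit 162148828039495716,nat_lit 1402114699529476685860,nat_lit 1438922598943212273681,nat_lit 1475793569092494532648,nat_lit 184654731548581929,nat_lit 189173724338405418,nat_lit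 76584283410104337,nat_lit 180167074839633960,nat_lit 1586600143669965971496,nat_lit 1623480133662886240293,nat_lit 1660364612961783111725,nat_lit 1697186023174602285102,nat_lit 1734084014921648767023,nat_lit 1770972999469171810323,nat_lit 1807870991216218292244,nat_lit 225188227706503218,nat_lit 15415538401219772546072623,nat_lit 234213019146854447,nat_lit 238716618774233135,nat_lit 1992473565780523819058,nat_lit 85595880711331859,nat_lit 90099480338710578,nat_lit 2029304005183701778482]
def o0 : List Nat := [nat_lit 50]
theorem ok : segCheck (Gen.gen sh_3_2_0_f (flP 3 2)) W M GT 6 0 1 H [b0] [] [p0] [o0] = true := by decide +kernel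
theorem seg {τ : Nat → Bool} (hgen : ∀ t c, Gen.gen sh_3_2_0_f (flP 3 2) t = some c → holdsG τ c)
  (hin : ∀ g, g < 0 → HL W (loc GT τ) (getB H g)) :
  ∀ g, 0 ≤ g → g < 1 → HL W (loc GT τ) (getB H g) :=
  segCheck_sound ok hgen hin
end Vale.Agent.Lib.P038.SatK.I.P3_2.S0
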